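import Mathlib.Data.Nat.Dist
import Mathlib.Order.Fin.Basic

/-! Distances with periodic boundary conditions. -/

namespace Vale.Agent.N356

/-- The distance of `a` and `b` on the cycle `ℤ / L`. -/
def cyc {L : ℕ} (a b : Fin L) : ℕ := min (Nat.dist a b) (L - Nat.dist a b)

/-- The `ℓ¹` distance on the torus `(ℤ / L)²`. -/
def distT {L : ℕ} (x y : Fin L × Fin L) : ℕ := cyc x.1 y.1 + cyc x.2 y.2

end Vale.Agent.N356
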