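import Vale.Agent.N356.Pad

/-! Systems over the square with at most `h` sites over each point. -/

namespace Vale.Agent.N356

open Matrix Finset Vale.Agent.P356 Vale.Agent.P356.SV Vale.Agent.P356.PH Vale.Agent.P356.Slab
open scoped Kronecker ComplexOrder Matrix.Norms.L2Operator

variable {L h q R : ℕ} {J : ℝ}

theorem adm_fam {I : Type} [Fintype I] (hJ : 0 ≤ J) {f : I → Finset (Site L × Fin h)}
    (hf : Function.Injective f) {k : I → Op (Site L × Fin h) q}
    (hk : ∀ i, (k i).IsHermitian ∧ ActsOn (f i) (k i) ∧ ‖k i‖ ≤ J ∧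
      (k i ≠ 0 → (f i).Nonempty ∧ ∀ x ∈ f i, ∀ y ∈ f i, dist1 x.1 y.1 ≤ R)) :
    Admissible L (q ^ h) R (strength h R J)
      ((∑ i, k i).submatrix (grp L h q).symm (grp L h q).symm : Op (Site L) (q ^ h)) := by
  classical
  set g := (grp L h q).symm
  have sub : ∀ i, f i ⊆ cols h ((f i).image Prod.fst) := fun i x hx =>
    mem_cols.2 (mem_image_of_mem _ hx)
  have ran : ∀ Y, ∑ i with (f i).image Prod.fst = Y, (k i).submatrix g g ≠ 0 →
      Y.Nonempty ∧ ∀ x ∈ Y, ∀ y ∈ Y, dist1 x y ≤ R := fun Y hY => by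
    obtain ⟨i, hi, hne⟩ := exists_ne_zero_of_sum_ne_zero hY
    obtain ⟨h1, h2⟩ := (hk i).2.2.2 fun h0 => hne (by rw [h0]; rfl)
    rw [← (mem_filter.1 hi).2]
    refine ⟨h1.image _, fun c hc c' hc' => ?_⟩
    obtain ⟨x, hx, rfl⟩ := mem_image.1 hc
    obtain ⟨x', hx', rfl⟩ := mem_image.1 hc'
    exact h2 x hx x' hx'
  refine ⟨fun Y => ∑ i with (f i).image Prod.fst = Y, (k i).submatrix g g,
    fun Y => ⟨?_, ?_, ph_opNormLe ?_, ran Y⟩, ?_⟩
  · unfold IsHermitian
    rw [conjTranspose_sum]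
    exact sum_congr rfl fun i _ => (hk i).1.submatrix g
  · exact ph_acts_sum _ fun i hi =>
      acts_grp (ph_acts_mono ((mem_filter.1 hi).2 ▸ sub i) (hk i).2.1)
  · by_cases hz : ∑ i with (f i).image Prod.fst = Y, (k i).submatrix g g = 0
    · exact (norm_eq_zero.2 hz).le.trans (mul_nonneg (by positivity) hJ)
    obtain ⟨⟨c, hc⟩, hd⟩ := ran Y hz
    have hY : Y.card ≤ (2 * R + 1) ^ 2 := (card_le_card fun x hx =>
      mem_filter.2 ⟨mem_univ _, hd x hx c hc⟩).trans (card_ball c R)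
    have hc : #{i | (f i).image Prod.fst = Y} ≤ 2 ^ (h * (2 * R + 1) ^ 2) := by
      refine (card_le_card_of_injOn (t := (cols h Y).powerset) f (fun i hi => ?_) hf.injOn).trans ?_
      · have e : (f i).image Prod.fst = Y := (mem_filter.1 hi).2
        exact mem_powerset.2 (e ▸ sub i)
      rw [card_powerset, card_product, card_univ, Fintype.card_fin, mul_comm]
      exact Nat.pow_le_pow_right (by norm_num) (Nat.mul_le_mul_left _ hY)
    refine (norm_sum_le _ _).trans ((sum_le_card_nsmul _ _ J fun i _ =>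
      ph_norm_le hJ (onl_sub' (grp L h q) (ph_opNormLe (hk i).2.2.1))).trans ?_)
    rw [nsmul_eq_mul]
    exact mul_le_mul_of_nonneg_right (by exact_mod_cast hc) hJ
  · rw [sum_fiberwise univ (fun i => (f i).image Prod.fst) fun i => (k i).submatrix g g]
    ext s t
    simp only [submatrix_apply, Matrix.sum_apply]

theorem acts_diag {W : Type} [DecidableEq W] [Fintype W] (u : W) (φ : Fin q → ℂ) :
    ActsOn {u} (diagonal fun s : Conf W q => φ (s u)) := by
  refine ⟨diagonal fun a => φ (a ⟨u, mem_singleton_self u⟩), fun s t =>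
    ⟨fun h => ?_, fun ⟨x, _, h⟩ => diagonal_apply_ne _ fun e => h (congrFun e x)⟩⟩
  by_cases e : s = t
  · subst e
    simp
  · rw [diagonal_apply_ne _ e, diagonal_apply_ne _ fun e' => e (funext fun x => ?_)]
    by_cases hx : x ∈ ({u} : Finset W)
    · exact congrFun e' ⟨x, hx⟩
    · exact h x hx

theorem exists_emb {V : Type} [Fintype V] [DecidableEq V] (π : V → Site L)
    (hπ : ∀ c, #{v | π v = c} ≤ h) : ∃ ι : V ↪ Site L × Fin h, ∀ v, (ι v).1 = π v := by
  have : ∀ c, Nonempty ({v // π v = c} ↪ Fin h) := fun c =>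
    Function.Embedding.nonempty_of_card_le (by simpa [Fintype.card_subtype] using hπ c)
  let e := fun c => (this c).some
  refine ⟨⟨fun v => (π v, e (π v) ⟨v, rfl⟩), fun v v' hv => ?_⟩, fun _ => rfl⟩
  have k : ∀ c (hc : π v' = c), e c ⟨v', hc⟩ = e (π v') ⟨v', rfl⟩ := by
    rintro _ rfl
    rfl
  obtain ⟨h1, h2⟩ := Prod.mk.inj hv
  exact congrArg Subtype.val ((e _).injective (h2.trans (k _ h1.symm).symm))

theorem general {Δ C : ℝ} (hq : 1 ≤ q) (hJ : 0 ≤ J) (hΔ : 0 ≤ Δ)
    (base : ∀ (H : Op (Site L) (q ^ h)), Admissible L (q ^ h) R (strength h R (J + Δ)) H →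
      ∀ (E : ℝ) (Ω : Conf (Site L) (q ^ h) → ℂ), GappedGround H Δ E Ω →
      ∀ A : Finset (Site L), entropyOf A Ω ≤ C * (bdry A : ℝ))
    {V : Type} [Fintype V] [DecidableEq V] (π : V → Site L) (hπ : ∀ c, #{v | π v = c} ≤ h)
    {H : Op V q} (hH : IsAdmissible (fun x y => dist2 (π x) (π y)) R J H) {E : ℝ}
    {Ω : Conf V q → ℂ} (hg : IsGapped H Δ E Ω) (B : Finset (Site L)) :
    entropyOf {v | π v ∈ B} Ω ≤ C * cutSize dist2 B := by
  obtain ⟨ι, hι⟩ := exists_emb π hπ
  obtain ⟨k, hk, hk2, rfl⟩ := hH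
  let z : Fin q := ⟨0, hq⟩
  let φ : Fin q → ℝ := fun a => if a = z then 0 else Δ
  have hφ : ∀ a, 0 ≤ φ a ∧ φ a ≤ Δ := fun a => by
    simp only [φ]
    split_ifs
    exacts [⟨le_rfl, hΔ⟩, ⟨hΔ, le_rfl⟩]
  have gp := gapped_pad (pe ι q) hg.gapped hΔ (w := fun t => ∑ u, φ (t u)) (b₀ := fun _ => z)
    (by simp [φ]) fun b hb => by
      obtain ⟨u, hu⟩ := Function.ne_iff.1 hb
      exact (if_neg hu).ge.trans (single_le_sum (f := fun u => φ (b u)) (fun u _ => (hφ _).1)
        (mem_univ u))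
  have ad := adm_fam (R := R) (add_nonneg hJ hΔ)
    (f := Sum.elim (fun X : Finset V => X.map ι) fun u : Ex ι => {u.1})
    (k := Sum.elim (fun X => opL (pe ι q) (k X)) fun u => diagonal fun s => (φ (s u.1) : ℂ))
    (by
      have o : ∀ (X : Finset V) (u : Ex ι), X.map ι ≠ {u.1} := fun X u e =>
        u.2 (map_subset_map.2 (subset_univ X) (e ▸ mem_singleton_self _))
      rintro (X | u) (Y | v) e
      exacts [congrArg _ (map_injective ι e), (o _ _ e).elim, (o _ _ e.symm).elim,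
        congrArg _ (Subtype.ext (singleton_injective e))])
    (by
      rintro (X | u)
      · refine ⟨(opL_conjTranspose _ _).trans (congrArg _ (hk X).1), acts_pad ι (hk X).2.1.acts,
          (GA.norm_opL_le125 _ _).trans ((hk X).2.2.trans (le_add_of_nonneg_right hΔ)),
          fun h0 => ?_⟩
        obtain ⟨h1, h2⟩ := hk2 X fun e => h0 (by simp [e, opL_zero])
        refine ⟨h1.map, fun x hx y hy => ?_⟩
        obtain ⟨x', hx', rfl⟩ := mem_map.1 hx
        obtain ⟨y', hy', rfl⟩ := mem_map.1 hy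
        rw [hι, hι, ← dist2_eq]
        exact h2 x' hx' y' hy'
      · refine ⟨isHermitian_diagonal_of_self_adjoint _ (funext fun s => by simp),
          acts_diag u.1 fun a => φ a, ?_, fun _ => ⟨singleton_nonempty _, fun x hx y hy => ?_⟩⟩
        · refine (l2_opNorm_diagonal _).le.trans ((pi_norm_le_iff_of_nonneg
            (add_nonneg hJ hΔ)).2 fun s => ?_)
          rw [Complex.norm_real, Real.norm_of_nonneg (hφ _).1]
          exact (hφ _).2.trans (le_add_of_nonneg_left hJ)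
        · rw [mem_singleton.1 hx, mem_singleton.1 hy]
          simp [dist1])
  have e : opL (pe ι q) (∑ X, k X) + (diagonal fun s => ((∑ u, φ ((pe ι q s).2 u) : ℝ) : ℂ)) =
      ∑ i, Sum.elim (fun X => opL (pe ι q) (k X))
        (fun u : Ex ι => diagonal fun s => (φ (s u.1) : ℂ)) i := by
    rw [Fintype.sum_sum_type, opL_sum]
    congr 1
    ext s t
    by_cases e : s = t
    · subst e
      simp [Matrix.sum_apply, pe]
    · simp [Matrix.sum_apply, e]
  have := base _ (e ▸ ad) E _ (gapped_sub (grp L h q) gp) B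
  rw [entropy_grp, entropy_pad, ← cutSize_eq] at this
  simpa only [mem_cols, hι] using this

end Vale.Agent.N356
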