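import Mathlib.Combinatorics.Enumerative.DoubleCounting
import Vale.Agent.N356.Defs
import Vale.Agent.N356.Gen

/-! Folding a cycle, and thin regions of the square. -/

namespace Vale.Agent.N356

open Finset Vale.Agent.P356 Vale.Agent.P356.Slab

variable {L : ℕ}

/-- The distance to `c` on the cycle. -/
def fold (c x : Fin L) : Fin L :=
  ⟨cyc x c, by have := x.2; have := c.2; unfold cyc Nat.dist; omega⟩

theorem fold_lip (c x y : Fin L) : Nat.dist (fold c x) (fold c y) ≤ cyc x y := by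
  have := x.2; have := y.2; have := c.2
  simp only [fold, cyc, Nat.dist]
  omega

theorem fold_fib (c t : Fin L) : #{x | fold c x = t} ≤ 4 := by
  refine (card_le_card_of_injOn (t := univ)
    (fun x => (decide (x < c), decide (Nat.dist x c = t))) (by simp) fun x hx y hy e => ?_).trans
    (by simp)
  have h1 := congrArg Fin.val (mem_filter.1 hx).2
  have h2 := congrArg Fin.val (mem_filter.1 hy).2
  have := x.2; have := y.2; have := c.2
  simp only [Prod.mk.injEq, decide_eq_decide, Fin.lt_def] at e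
  simp only [fold, cyc, Nat.dist] at h1 h2 e
  ext
  omega

/-- `g` is locally onto on the interval `[a, a')`. -/
def Iso (a a' : ℕ) (g : Fin L → Fin L) : Prop :=
  ∀ x t : Fin L, a < x → x + 1 < a' → Nat.dist (g x) t ≤ 1 →
    ∃ y : Fin L, a ≤ y ∧ y < a' ∧ g y = t ∧ Nat.dist x y = Nat.dist (g x) t

theorem folds {a a' : ℕ} (h1 : a < a') (h2 : a' ≤ L) (h3 : 3 * (a' - a) + 2 ≤ L) :
    ∃ c d : Fin L, Iso a a' (fold c) ∧ Iso a a' (fold d) ∧ ∀ x x' y : Fin L, a ≤ x → x < a' →
      a ≤ x' → x' < a' → fold c x = fold c y → fold d x' = fold d y → x = y := by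
  obtain ⟨c, hc⟩ : ∃ c : Fin L, c = a' ∨ c + L = a' := by
    by_cases h : a' < L
    exacts [⟨⟨a', h⟩, Or.inl rfl⟩, ⟨⟨0, by omega⟩, Or.inr (by simp; omega)⟩]
  obtain ⟨d, hd⟩ : ∃ d : Fin L, d + 1 = a ∨ d + 1 = a + L := by
    by_cases h : a = 0
    exacts [⟨⟨L - 1, by omega⟩, Or.inr (by simp; omega)⟩,
      ⟨⟨a - 1, by omega⟩, Or.inl (by simp; omega)⟩]
  have kc : ∀ x : Fin L, a ≤ x → x < a' → fold c x + x = a' := fun x _ _ => by
    have := c.2
    simp only [fold, cyc, Nat.dist]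
    omega
  have kd : ∀ x : Fin L, a ≤ x → x < a' → fold d x + a = x + 1 := fun x _ _ => by
    have := d.2
    simp only [fold, cyc, Nat.dist]
    omega
  refine ⟨c, d, fun x t i1 i2 i3 => ?_, fun x t i1 i2 i3 => ?_, fun x x' y i1 i2 i3 i4 e e' => ?_⟩
  · have := kc x i1.le (by omega)
    unfold Nat.dist at i3 ⊢
    have k := kc ⟨a' - t, by omega⟩ (by simp; omega) (by simp; omega)
    exact ⟨⟨a' - t, by omega⟩, by simp; omega, by simp; omega, Fin.ext (by simp at k; omega),
      by simp; omega⟩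
  · have := kd x i1.le (by omega)
    unfold Nat.dist at i3 ⊢
    have k := kd ⟨a + t - 1, by omega⟩ (by simp; omega) (by simp; omega)
    exact ⟨⟨a + t - 1, by omega⟩, by simp; omega, by simp; omega, Fin.ext (by simp at k; omega),
      by simp; omega⟩
  · have k1 := kc x i1 i2
    have k2 := kd x' i3 i4
    rw [e] at k1
    rw [e'] at k2
    have := y.2; have := c.2; have := d.2
    simp only [fold, cyc, Nat.dist] at k1 k2
    ext
    omega

theorem mixed {A : Finset (Site L)} (φ : Fin L → Fin L → Site L)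
    (h1 : ∀ r i j, dist2 (φ r i) (φ r j) = Nat.dist i j)
    (h2 : ∀ r r' i i', φ r i = φ r' i' → r = r') :
    #{r | ∃ i j, φ r i ∈ A ∧ φ r j ∉ A} ≤ cutSize dist2 A := by
  have : ∀ r ∈ ({r | ∃ i j, φ r i ∈ A ∧ φ r j ∉ A} : Finset (Fin L)),
      ∃ p : Fin L × Fin L, φ r p.1 ∈ A ∧ φ r p.2 ∉ A ∧ Nat.dist p.1 p.2 = 1 := fun r hr => by
    obtain ⟨i, j, hi, hj⟩ := (mem_filter.1 hr).2
    obtain ⟨u, v, k⟩ := exists_vertical (A := {p | φ r p.2 ∈ A}) (c := (r, r)) i j
      (by simpa using hi) (by simpa using hj)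
    exact ⟨(u, v), by simpa using k⟩
  choose p hp using this
  refine card_le_card_of_forall_subsingleton
    (fun r e => ∃ hr, e = (φ r (p r hr).1, φ r (p r hr).2)) (fun r hr => ⟨_, ?_, hr, rfl⟩)
    fun e _ r ⟨_, _, e1⟩ r' ⟨_, _, e2⟩ => h2 _ _ _ _ (congrArg Prod.fst (e1.symm.trans e2))
  exact mem_filter.2 ⟨mem_product.2 ⟨(hp r hr).1, mem_compl.2 (hp r hr).2.1⟩,
    (h1 _ _ _).trans (hp r hr).2.2⟩

/-- Every row and every column contains at most `n` points of `A`. -/
def Thin (n : ℕ) (A : Finset (Site L)) : Prop :=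
  ∀ c : ℕ, #{x ∈ A | x.1 = c} ≤ n ∧ #{x ∈ A | x.2 = c} ≤ n

theorem cut_compl {V : Type} [Fintype V] [DecidableEq V] {d : V → V → ℕ}
    (hd : ∀ x y, d x y = d y x) (A : Finset V) : cutSize d Aᶜ ≤ cutSize d A :=
  card_le_card_of_injOn Prod.swap (fun p hp => by
    simp only [coe_filter, mem_product, mem_compl, Set.mem_ofPred_eq, not_not] at hp ⊢
    exact ⟨hp.1.symm, (hd _ _).trans hp.2⟩) Prod.swap_injective.injOn

theorem thin (A : Finset (Site L)) : Thin (cutSize dist2 A) A ∨ Thin (cutSize dist2 A) Aᶜ := by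
  have m1 := mixed (A := A) (fun r i => (i, r)) (fun r i j => by simp [dist2])
    fun r r' i i' e => congrArg Prod.snd e
  have m2 := mixed (A := A) (fun r i => (r, i)) (fun r i j => by simp [dist2])
    fun r r' i i' e => congrArg Prod.fst e
  have key : ∀ (D : Finset (Site L)) (R C : Finset (Fin L)), (∀ x ∈ D, x.2 ∈ R ∧ x.1 ∈ C) →
      #R ≤ cutSize dist2 A → #C ≤ cutSize dist2 A → Thin (cutSize dist2 A) D :=
    fun D R C h hR hC c => ⟨(card_le_card_of_injOn Prod.snd
      (fun x hx => (h x (mem_filter.1 hx).1).1) fun x hx y hy e => Prod.ext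
        (Fin.ext ((mem_filter.1 hx).2.trans (mem_filter.1 hy).2.symm)) e).trans hR,
      (card_le_card_of_injOn Prod.fst (fun x hx => (h x (mem_filter.1 hx).1).2)
        fun x hx y hy e => Prod.ext e
          (Fin.ext ((mem_filter.1 hx).2.trans (mem_filter.1 hy).2.symm))).trans hC⟩
  by_cases hL : L ≤ cutSize dist2 A
  · exact Or.inl (key A univ univ (by simp) (by simpa) (by simpa))
  have pure : ∀ S : Finset (Fin L), #S ≤ cutSize dist2 A → ∃ r, r ∉ S := fun S hS => by
    by_contra! h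
    rw [eq_univ_iff_forall.2 h, card_univ, Fintype.card_fin] at hS
    exact hL hS
  obtain ⟨r, hr⟩ := pure _ m1
  obtain ⟨c, hc⟩ := pure _ m2
  simp only [mem_filter, mem_univ, true_and, not_exists, not_and, not_not] at hr hc
  by_cases h : (c, r) ∈ A
  · exact Or.inr (key _ _ _ (fun x hx => ⟨mem_filter.2 ⟨mem_univ _, c, x.1, hc r x.2 h,
      mem_compl.1 hx⟩, mem_filter.2 ⟨mem_univ _, r, x.2, hr c x.1 h, mem_compl.1 hx⟩⟩) m1 m2)
  · exact Or.inl (key _ _ _ (fun x hx => ⟨mem_filter.2 ⟨mem_univ _, x.1, c, hx,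
      fun k => h (hc x.2 r k)⟩, mem_filter.2 ⟨mem_univ _, x.2, r, hx, fun k => h (hr x.1 c k)⟩⟩)
      m1 m2)

end Vale.Agent.N356
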