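import Vale.Agent.P356.H382.Group
import Vale.Agent.P356.GA.Low125a

/-! Adding decoupled sites to a gapped system. -/

namespace Vale.Agent.N356

open Matrix Finset Vale.Agent.P356 Vale.Agent.P356.SV Vale.Agent.P356.PH Vale.Agent.P356.Slab
open scoped Kronecker ComplexOrder Matrix.Norms.L2Operator

section gap
variable {N α β : Type} [Fintype N] [DecidableEq N] [Fintype α] [DecidableEq α] [Fintype β]
  [DecidableEq β]

omit [DecidableEq α] in
theorem cs {Ω : α → ℂ} (h : nsq Ω = 1) (ψ : α → ℂ) : ‖star Ω ⬝ᵥ ψ‖ ^ 2 ≤ nsq ψ := by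
  have h1 : ‖star Ω ⬝ᵥ ψ‖ ≤ ∑ i, ‖Ω i‖ * ‖ψ i‖ :=
    (norm_sum_le _ _).trans (le_of_eq (sum_congr rfl fun i _ => by simp))
  have h2 := sum_mul_sq_le_sq_mul_sq univ (fun i => ‖Ω i‖) fun i => ‖ψ i‖
  unfold nsq at h ⊢
  rw [h, one_mul] at h2
  exact (pow_le_pow_left₀ (norm_nonneg _) h1 2).trans h2

theorem gapped_pad (e : N ≃ α × β) {H : Matrix α α ℂ} {Δ E : ℝ} {Ω : α → ℂ}
    (h : GappedGround H Δ E Ω) (hΔ : 0 ≤ Δ) {w : β → ℝ} {b₀ : β} (h0 : w b₀ = 0)
    (hw : ∀ b, b ≠ b₀ → Δ ≤ w b) :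
    GappedGround (opL e H + diagonal fun s => (w (e s).2 : ℂ)) Δ E
      fun s => if (e s).2 = b₀ then Ω (e s).1 else 0 := by
  obtain ⟨h1, h2, h3⟩ := h
  have sum : ∀ {M : Type} [AddCommMonoid M] (f : N → M), ∑ s, f s = ∑ b, ∑ a, f (e.symm (a, b)) :=
    fun f => by rw [← e.symm.sum_comp, Fintype.sum_prod_type_right]
  have mv : ∀ (ψ : N → ℂ) a b, ((opL e H + diagonal fun s => (w (e s).2 : ℂ)) *ᵥ ψ) (e.symm (a, b)) =
      (H *ᵥ fun a => ψ (e.symm (a, b))) a + w b * ψ (e.symm (a, b)) := fun ψ a b => by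
    rw [add_mulVec, Pi.add_apply, opL_mulVec_apply, mulVec_diagonal, e.apply_symm_apply]
    rfl
  refine ⟨?_, funext fun s => ?_, fun ψ => ?_⟩
  · rw [nsq, sum, sum_eq_single b₀ (fun b _ hb => by simp [hb]) (by simp), ← h1]
    simp [nsq]
  · obtain ⟨⟨a, b⟩, rfl⟩ := e.symm.surjective s
    rw [mv]
    by_cases hb : b = b₀
    · simp [hb, h0, h2]
    · simp [hb, mulVec, dotProduct]
  · have e1 : (star fun s => if (e s).2 = b₀ then Ω (e s).1 else 0) ⬝ᵥ ψ =
        star Ω ⬝ᵥ fun a => ψ (e.symm (a, b₀)) := by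
      rw [dotProduct, sum, sum_eq_single b₀ (fun b _ hb => by simp [hb]) (by simp)]
      simp [dotProduct]
    have e2 : nsq ψ = ∑ b, nsq fun a => ψ (e.symm (a, b)) := sum _
    have e3 : (star ψ ⬝ᵥ ((opL e H + diagonal fun s => (w (e s).2 : ℂ)) *ᵥ ψ)).re =
        ∑ b, (((star fun a => ψ (e.symm (a, b))) ⬝ᵥ (H *ᵥ fun a => ψ (e.symm (a, b)))).re +
          w b * nsq fun a => ψ (e.symm (a, b))) := by
      rw [dotProduct, sum, Complex.re_sum]
      refine sum_congr rfl fun b _ => ?_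
      rw [← Complex.ofReal_re (w b * _), ← Complex.add_re, Complex.ofReal_mul, ← star_dot_self]
      simp only [mv, dotProduct, mul_sum, ← sum_add_distrib, Pi.star_apply]
      congr 1
      exact sum_congr rfl fun a _ => by ring
    rw [e1, e2, e3, mul_sum, ← sum_sub_distrib, mul_sub, mul_sum,
      ← sum_ite_eq_of_mem univ b₀ (fun _ => Δ * _) (mem_univ _), ← sum_sub_distrib]
    refine sum_le_sum fun b _ => ?_
    have k1 := h3 fun a => ψ (e.symm (a, b))
    have k2 := cs h1 fun a => ψ (e.symm (a, b))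
    by_cases hb : b₀ = b
    · subst hb
      rw [if_pos rfl, h0]; linarith
    · rw [if_neg hb]
      have k3 := mul_le_mul_of_nonneg_right (hw b (Ne.symm hb)) ((sq_nonneg _).trans k2)
      nlinarith

theorem vn_comm (M : Matrix α β ℂ) : vnEntropy (M * Mᴴ) = vnEntropy (Mᴴ * M) :=
  b7_vn_congr (isHermitian_mul_conjTranspose_self M) (isHermitian_conjTranspose_mul_self M) _ _
    (charpoly_mul_comm' M Mᴴ)

omit [Fintype α] [DecidableEq α] [DecidableEq N] [DecidableEq β] in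
theorem cols_sub (M : Matrix α β ℂ) {k : N → β} (hk : Function.Injective k)
    (h0 : ∀ b, b ∉ Set.range k → ∀ a, M a b = 0) :
    M * Mᴴ = M.submatrix id k * (M.submatrix id k)ᴴ := by
  ext a a'
  simp only [mul_apply, conjTranspose_apply, submatrix_apply, id]
  exact (Fintype.sum_of_injective k hk _ _ (fun b hb => by rw [h0 b hb, zero_mul])
    fun _ => rfl).symm

omit [DecidableEq β] in
theorem vn_sub {N' : Type} [Fintype N'] [DecidableEq N'] (M : Matrix α β ℂ) {j : N' → α}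
    {k : N → β} (hj : Function.Injective j) (hk : Function.Injective k)
    (h0 : ∀ a b, a ∉ Set.range j ∨ b ∉ Set.range k → M a b = 0) :
    vnEntropy (M * Mᴴ) = vnEntropy (M.submatrix j k * (M.submatrix j k)ᴴ) := by
  rw [cols_sub M hk fun b hb a => h0 a b (Or.inr hb), vn_comm, vn_comm (M.submatrix j k)]
  have := cols_sub (M.submatrix id k)ᴴ hj fun a ha b => by
    simp [h0 a _ (Or.inl ha)]
  rw [conjTranspose_conjTranspose] at this
  rw [this]
  congr 2
  rw [conjTranspose_submatrix, conjTranspose_submatrix, conjTranspose_submatrix,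
    conjTranspose_conjTranspose]
  rfl

end gap

section pad
variable {V W : Type} [Fintype V] [DecidableEq V] [Fintype W] [DecidableEq W] {q : ℕ}
  (ι : V ↪ W)

/-- The new sites. -/
abbrev Ex := {w : W // w ∉ univ.map ι}

/-- A configuration is a configuration on the old sites and one on the new sites. -/
noncomputable def pe (q : ℕ) : Conf W q ≃ Conf V q × (Ex ι → Fin q) where
  toFun s := (fun v => s (ι v), fun u => s u)
  invFun p w := if h : w ∈ univ.map ι then p.1 (mem_map.1 h).choose else p.2 ⟨w, h⟩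
  left_inv s := funext fun w => by
    by_cases h : w ∈ univ.map ι
    · simp only [dif_pos h, (mem_map.1 h).choose_spec.2]
    · simp only [dif_neg h]
  right_inv p := Prod.ext (funext fun v => by
      have h : ι v ∈ univ.map ι := by simp
      simp only [dif_pos h, ι.injective (mem_map.1 h).choose_spec.2])
    (funext fun u => by simp only [dif_neg u.2])

theorem acts_pad {X : Finset V} {k : Op V q} (hk : ActsOn X k) :
    ActsOn (X.map ι) (opL (pe ι q) k) := by
  obtain ⟨m, hm⟩ := hk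
  refine ⟨m.submatrix (fun a x => a ⟨ι x, mem_map_of_mem ι x.2⟩)
    (fun a x => a ⟨ι x, mem_map_of_mem ι x.2⟩), fun s t => ⟨fun h => ?_, fun ⟨w, h1, h2⟩ => ?_⟩⟩
  · rw [opL_apply, if_pos, mul_one]
    · exact (hm _ _).1 fun x hx => h _ (by simpa using hx)
    · exact funext fun u => h _ fun h1 => u.2 (map_subset_map.2 (subset_univ _) h1)
  · rw [opL_apply]
    by_cases h : w ∈ univ.map ι
    · obtain ⟨v, -, rfl⟩ := mem_map.1 h
      rw [(hm _ _).2 ⟨v, fun h3 => h1 (mem_map_of_mem ι h3), h2⟩, zero_mul]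
    · rw [if_neg fun h3 => h2 (congrFun h3 ⟨w, h⟩), mul_zero]

theorem entropy_pad (z : Fin q) (D : Finset W) (Ω : Conf V q → ℂ) :
    entropyOf D (fun s => if (pe ι q s).2 = (fun _ => z) then Ω (pe ι q s).1 else 0) =
      entropyOf (univ.filter fun v => ι v ∈ D) Ω := by
  classical
  set A := univ.filter fun v => ι v ∈ D with hA
  have hm : ∀ v, v ∈ A ↔ ι v ∈ D := fun v => by simp [hA]
  let x : (P : V → Prop) → (Q : W → Prop) → ({v // P v} → Fin q) → {w // Q w} → Fin q :=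
    fun P Q a w => if h : ∃ v : {v // P v}, ι v = w then a h.choose else z
  have x1 : ∀ P Q a (v : V) (hv : P v) (hw : Q (ι v)), x P Q a ⟨ι v, hw⟩ = a ⟨v, hv⟩ := by
    intro P Q a v hv hw
    have h : ∃ v' : {v // P v}, ι v' = ι v := ⟨⟨v, hv⟩, rfl⟩
    simp only [x, dif_pos h]
    exact congrArg a (Subtype.ext (ι.injective h.choose_spec))
  have x2 : ∀ P Q a (w : {w // Q w}), w.1 ∉ univ.map ι → x P Q a w = z := fun P Q a w hw =>
    dif_neg fun ⟨v, hv⟩ => hw (hv ▸ mem_map_of_mem ι (mem_univ _))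
  have x3 : ∀ (P : V → Prop) (Q : W → Prop), (∀ v, P v ↔ Q (ι v)) →
      Function.Injective (x P Q) ∧ ∀ c : {w // Q w} → Fin q,
        (∀ w : {w // Q w}, w.1 ∉ univ.map ι → c w = z) → c ∈ Set.range (x P Q) := by
    refine fun P Q h => ⟨fun a a' e => funext fun v => ?_,
      fun c hc => ⟨fun v => c ⟨ι v, (h v).1 v.2⟩, funext fun w => ?_⟩⟩
    · rw [← x1 P Q a v v.2 ((h v).1 v.2), e, x1 P Q a' v v.2]
    · by_cases hw : w.1 ∈ univ.map ι
      · obtain ⟨w, hw'⟩ := w
        obtain ⟨v, -, rfl⟩ := mem_map.1 hw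
        exact x1 P Q (fun v => c ⟨ι v, (h v).1 v.2⟩) v ((h v).2 hw') hw'
      · rw [x2 P Q (fun v => c ⟨ι v, (h v).1 v.2⟩) w hw, hc w hw]
  obtain ⟨i1, r1⟩ := x3 (· ∈ A) (· ∈ D) hm
  obtain ⟨i2, r2⟩ := x3 (· ∉ A) (· ∉ D) fun v => (hm v).not
  have key : (b7_amp D fun s => if (pe ι q s).2 = (fun _ => z) then Ω (pe ι q s).1 else 0).submatrix
      (x (· ∈ A) (· ∈ D)) (x (· ∉ A) (· ∉ D)) = b7_amp A Ω := by
    ext a b
    simp only [submatrix_apply, b7_amp]
    rw [if_pos]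
    · congr 1
      funext v
      by_cases hv : v ∈ A
      · simpa [pe, Equiv.piEquivPiSubtypeProd, hv, (hm v).1 hv] using
          x1 (· ∈ A) (· ∈ D) a v hv ((hm v).1 hv)
      · simpa [pe, Equiv.piEquivPiSubtypeProd, hv, (hm v).not.1 hv] using
          x1 (· ∉ A) (· ∉ D) b v hv ((hm v).not.1 hv)
    · funext u
      by_cases hu : u.1 ∈ D
      · simpa [pe, Equiv.piEquivPiSubtypeProd, hu] using x2 (· ∈ A) (· ∈ D) a ⟨u.1, hu⟩ u.2
      · simpa [pe, Equiv.piEquivPiSubtypeProd, hu] using x2 (· ∉ A) (· ∉ D) b ⟨u.1, hu⟩ u.2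
  unfold entropyOf
  rw [b7_rdm_eq, b7_rdm_eq, vn_sub _ i1 i2, key]
  refine fun a b h => if_neg fun h1 => ?_
  rcases h with h | h
  · refine h (r1 a fun w hw => ?_)
    simpa [pe, Equiv.piEquivPiSubtypeProd, w.2] using congrFun h1 ⟨w.1, hw⟩
  · refine h (r2 b fun w hw => ?_)
    simpa [pe, Equiv.piEquivPiSubtypeProd, w.2] using congrFun h1 ⟨w.1, hw⟩

end pad

end Vale.Agent.N356
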