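import Vale.Agent.N356.Fold
import Vale.Agent.P356.SA.Ssa

/-! Regions of the torus as intersections of folded regions. -/

namespace Vale.Agent.N356

open Finset Vale.Agent.P356 Vale.Agent.P356.SV Vale.Agent.P356.Slab

section sub
variable {V : Type} [Fintype V] [DecidableEq V] {q : ℕ} {Ω : Conf V q → ℂ}

theorem submod (P Q : Finset V) :
    entropyOf (P ∪ Q) Ω + entropyOf (P ∩ Q) Ω ≤ entropyOf P Ω + entropyOf Q Ω := by
  have := SA.ssa (P \ Q) (P ∩ Q) (Q \ P) (disjoint_sdiff_inter P Q)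
    (disjoint_left.2 fun x h h' => (mem_sdiff.1 h').2 (mem_sdiff.1 h).1)
    (disjoint_left.2 fun x h h' => (mem_sdiff.1 h').2 (mem_inter.1 h).1) Ω
  rwa [sdiff_union_inter, union_sdiff_self_eq_union, union_comm (P ∩ Q), inter_comm P Q,
    sdiff_union_inter, inter_comm Q P] at this

theorem near (hq : 1 ≤ q) (hΩ : nsq Ω = 1) (A P : Finset V) :
    entropyOf A Ω ≤ entropyOf P Ω + Real.log q * (#(A \ P) + #(P \ A)) := by
  have h1 := submod (Ω := Ω) P (P \ A)ᶜ
  have h2 := entropy_union (A ∩ P) (A \ P) (disjoint_sdiff_inter A P).symm Ω hΩ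
  have h3 := entropy_nonneg (P ∪ (P \ A)ᶜ) Ω hΩ
  have h4 := entropy_le_card hq (A \ P) Ω hΩ
  have h5 := entropy_le_card hq (P \ A) Ω hΩ
  have e : P ∩ (P \ A)ᶜ = A ∩ P := by
    ext x
    simp only [mem_inter, mem_compl, mem_sdiff]
    tauto
  rw [e, entropy_compl _ Ω hΩ] at h1
  rw [union_comm, sdiff_union_inter] at h2
  linarith

/-- The properties of the entropy of regions that are used below. -/
structure Ent (K : ℝ) (S : Finset V → ℝ) : Prop where
  sub : ∀ P Q, S (P ∪ Q) + S (P ∩ Q) ≤ S P + S Q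
  pos : ∀ P, 0 ≤ S P
  vol : ∀ P, S P ≤ K * #P
  cpl : ∀ P, S Pᶜ = S P

theorem ent {W : Type} [Fintype W] [DecidableEq W] (hq : 1 ≤ q) (hΩ : nsq Ω = 1) {h : ℕ}
    {π : V → W} (hπ : ∀ c, #{v | π v = c} ≤ h) :
    Ent (Real.log q * h) fun B : Finset W => entropyOf {v | π v ∈ B} Ω := by
  refine ⟨fun P Q => ?_, fun P => entropy_nonneg _ Ω hΩ, fun P => ?_, fun P => ?_⟩
  · simpa only [mem_union, mem_inter, filter_or, filter_and] using
      submod (Ω := Ω) {v | π v ∈ P} {v | π v ∈ Q}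
  · refine (entropy_le_card hq _ Ω hΩ).trans ?_
    rw [mul_assoc]
    exact mul_le_mul_of_nonneg_left (by
      exact_mod_cast card_le_mul_card_image_of_maps_to (fun v hv => (mem_filter.1 hv).2) h
        fun c _ => (card_le_card (filter_subset_filter _ (subset_univ _))).trans (hπ c))
      (Real.log_natCast_nonneg q)
  · rw [← entropy_compl {v | π v ∈ P} Ω hΩ]
    simp only [mem_compl, compl_filter]

theorem Ent.biUnion {K : ℝ} {S : Finset V → ℝ} (hS : Ent K S) {ι : Type} [DecidableEq ι]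
    (F : ι → Finset V) (s : Finset ι) : S (s.biUnion F) ≤ ∑ j ∈ s, S (F j) := by
  induction s using Finset.induction_on with
  | empty => simpa using hS.vol ∅
  | insert j s hj ih =>
    have := hS.sub (F j) (s.biUnion F)
    have := hS.pos (F j ∩ s.biUnion F)
    rw [biUnion_insert, sum_insert hj]
    linarith

end sub

variable {L n a a' b b' : ℕ} {A : Finset (Site L)}

/-- The part of `A` in a rectangle. -/
abbrev box (A : Finset (Site L)) (a a' b b' : ℕ) : Finset (Site L) :=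
  {x ∈ A | (a ≤ x.1 ∧ x.1 < a') ∧ b ≤ x.2 ∧ x.2 < b'}

theorem cut_img {g g' : Fin L → Fin L} (hg : Iso a a' g) (hg' : Iso b b' g') (hA : Thin n A)
    (hn : cutSize dist2 A ≤ n) :
    cutSize dist2 ((box A a a' b b').image (Prod.map g g')) ≤ 37 * n := by
  set π := Prod.map g g'
  have h1 : #(({x ∈ A | x.1 = a} ∪ {x ∈ A | x.1 = a' - 1} ∪ {x ∈ A | x.2 = b} ∪
      {x ∈ A | x.2 = b' - 1} : Finset (Site L))) ≤ 4 * n := by
    have := (hA a).1; have := (hA (a' - 1)).1; have := (hA b).2; have := (hA (b' - 1)).2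
    refine (card_union_le _ _).trans ((Nat.add_le_add_right ((card_union_le _ _).trans
      (Nat.add_le_add_right (card_union_le _ _) _)) _).trans ?_)
    omega
  have h2 := card_biUnion_le_card_mul ({x ∈ A | x.1 = a} ∪ {x ∈ A | x.1 = a' - 1} ∪
    {x ∈ A | x.2 = b} ∪ {x ∈ A | x.2 = b' - 1} : Finset (Site L))
    (fun x => ({v | dist1 v (π x) ≤ 1} : Finset (Site L)).image fun v => (π x, v)) 9
    fun x _ => card_image_le.trans (card_ball (π x) 1)
  have h3 := card_image_le (s := (A ×ˢ Aᶜ).filter fun p => dist2 p.1 p.2 = 1) (f := Prod.map π π)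
  refine (card_le_card fun p hp => ?_).trans ((card_union_le _ _).trans
    ((add_le_add (h3.trans hn) h2).trans (by omega)))
  obtain ⟨hp, hd⟩ := mem_filter.1 hp
  obtain ⟨hu, hv⟩ := mem_product.1 hp
  obtain ⟨x, hx, e⟩ := mem_image.1 hu
  obtain ⟨u, v⟩ := p
  obtain rfl : π x = u := e
  obtain ⟨hx, i⟩ := mem_filter.1 hx
  have hd' : Nat.dist (g x.1) v.1 + Nat.dist (g' x.2) v.2 = 1 := hd
  by_cases k : a < x.1 ∧ x.1 + 1 < a' ∧ b < x.2 ∧ x.2 + 1 < b'
  · obtain ⟨y, y1, y2, y3, y4⟩ := hg x.1 v.1 k.1 k.2.1 (by omega)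
    obtain ⟨z, z1, z2, z3, z4⟩ := hg' x.2 v.2 k.2.2.1 k.2.2.2 (by omega)
    have e : π (y, z) = v := Prod.ext y3 z3
    refine mem_union_left _ (mem_image.2 ⟨(x, (y, z)), mem_filter.2 ⟨mem_product.2 ⟨hx,
      mem_compl.2 fun h => mem_compl.1 hv (mem_image.2 ⟨_, mem_filter.2 ⟨h, ⟨y1, y2⟩, z1, z2⟩, e⟩)⟩,
      ?_⟩, Prod.ext rfl e⟩)
    rw [← y4, ← z4] at hd'
    exact hd'
  · refine mem_union_right _ (mem_biUnion.2 ⟨x, ?_, mem_image.2 ⟨v, mem_filter.2 ⟨mem_univ _, ?_⟩,
      rfl⟩⟩)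
    · simp only [mem_union, mem_filter, hx, true_and]
      omega
    · rw [dist1_comm, ← dist2_eq]
      exact hd.le

variable {C K : ℝ} {S : Finset (Site L) → ℝ}

theorem block (hS : Ent K S) (hC : 0 ≤ C) (hG : ∀ (c c' : Fin L) B,
      S {v | Prod.map (fold c) (fold c') v ∈ B} ≤ C * cutSize dist2 B)
    (hA : Thin n A) (hn : cutSize dist2 A ≤ n) (h1 : a' ≤ L) (h2 : 3 * (a' - a) + 2 ≤ L)
    (h3 : b' ≤ L) (h4 : 3 * (b' - b) + 2 ≤ L) : S (box A a a' b b') ≤ 74 * C * n := by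
  rcases (box A a a' b b').eq_empty_or_nonempty with h | ⟨x, hx⟩
  · rw [h]
    exact (hS.vol ∅).trans (by simp; positivity)
  have i := (mem_filter.1 hx).2
  obtain ⟨c, d, c1, d1, k⟩ := folds (i.1.1.trans_lt i.1.2) h1 h2
  obtain ⟨c', d', c2, d2, k'⟩ := folds (i.2.1.trans_lt i.2.2) h3 h4
  have e : ({v | Prod.map (fold c) (fold c') v ∈
      (box A a a' b b').image (Prod.map (fold c) (fold c'))} : Finset (Site L)) ∩
      ({v | Prod.map (fold d) (fold d') v ∈
      (box A a a' b b').image (Prod.map (fold d) (fold d'))} : Finset (Site L)) =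
      box A a a' b b' := by
    refine Subset.antisymm (fun y hy => ?_) fun y hy => mem_inter.2
      ⟨mem_filter.2 ⟨mem_univ _, mem_image_of_mem _ hy⟩,
        mem_filter.2 ⟨mem_univ _, mem_image_of_mem _ hy⟩⟩
    obtain ⟨u, hu, e⟩ := mem_image.1 (mem_filter.1 (mem_inter.1 hy).1).2
    obtain ⟨w, hw, e'⟩ := mem_image.1 (mem_filter.1 (mem_inter.1 hy).2).2
    have i := (mem_filter.1 hu).2
    have j := (mem_filter.1 hw).2
    rwa [← (Prod.ext (k _ _ _ i.1.1 i.1.2 j.1.1 j.1.2 (congrArg Prod.fst e) (congrArg Prod.fst e'))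
      (k' _ _ _ i.2.1 i.2.2 j.2.1 j.2.2 (congrArg Prod.snd e) (congrArg Prod.snd e')) : u = y)]
  have s := (add_le_add (hS.pos _) le_rfl).trans ((hS.sub _ _).trans
    (add_le_add (hG c c' ((box A a a' b b').image (Prod.map (fold c) (fold c'))))
      (hG d d' ((box A a a' b b').image (Prod.map (fold d) (fold d'))))))
  have b1 := mul_le_mul_of_nonneg_left (Nat.cast_le (α := ℝ).2 (cut_img c1 c2 hA hn)) hC
  have b2 := mul_le_mul_of_nonneg_left (Nat.cast_le (α := ℝ).2 (cut_img d1 d2 hA hn)) hC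
  rw [e] at s
  push_cast at b1 b2
  linarith

theorem torus_thin (hS : Ent K S) (hK : 0 ≤ K) (hC : 0 ≤ C) (hG : ∀ (c c' : Fin L) B,
      S {v | Prod.map (fold c) (fold c') v ∈ B} ≤ C * cutSize dist2 B)
    (hA : Thin n A) (hn : cutSize dist2 A ≤ n) :
    S A ≤ (3626 * C + 4 * K) * n := by
  have hl : 0 ≤ K * n := mul_nonneg hK n.cast_nonneg
  have hc : 0 ≤ C * n := mul_nonneg hC n.cast_nonneg
  by_cases hL : L < 5
  · have h1 := card_le_mul_card_image_of_maps_to (s := A) (t := range 4) (f := fun x => x.1)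
      (fun x _ => mem_range.2 (by have := x.1.2; omega)) n fun c _ => (hA c).1
    have h2 := mul_le_mul_of_nonneg_left (Nat.cast_le (α := ℝ).2 h1) hK
    have h3 := hS.vol A
    rw [card_range] at h2
    push_cast at h2
    linarith
  obtain ⟨l, h1, h2, h3⟩ : ∃ l, 0 < l ∧ 3 * l + 2 ≤ L ∧ L ≤ 7 * l := ⟨(L - 2) / 3, by omega⟩
  have e : (range 7 ×ˢ range 7).biUnion (fun j => box A (j.1 * l) (min (j.1 * l + l) L) (j.2 * l)
      (min (j.2 * l + l) L)) = A := by
    refine Subset.antisymm (biUnion_subset.2 fun _ _ => filter_subset _ _) fun x hx => ?_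
    have k : ∀ t : Fin L, t / l ∈ range 7 ∧ t / l * l ≤ t ∧ t < min (t / l * l + l) L := fun t =>
      ⟨mem_range.2 ((Nat.div_lt_iff_lt_mul h1).2 (t.2.trans_le h3)), Nat.div_mul_le_self _ _,
        lt_min (Nat.lt_div_mul_add h1) t.2⟩
    exact mem_biUnion.2 ⟨(x.1 / l, x.2 / l), mem_product.2 ⟨(k _).1, (k _).1⟩,
      mem_filter.2 ⟨hx, (k _).2, (k _).2⟩⟩
  have s := (hS.biUnion _ (range 7 ×ˢ range 7)).trans (sum_le_card_nsmul _ _ _ fun j _ =>
    block (a := j.1 * l) (a' := min (j.1 * l + l) L) (b := j.2 * l) (b' := min (j.2 * l + l) L)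
      hS hC hG hA hn (min_le_right _ _) (by omega) (min_le_right _ _) (by omega))
  rw [e, card_product, card_range, nsmul_eq_mul] at s
  push_cast at s
  linarith

theorem torus (hS : Ent K S) (hK : 0 ≤ K) (hC : 0 ≤ C) (hG : ∀ (c c' : Fin L) B,
      S {v | Prod.map (fold c) (fold c') v ∈ B} ≤ C * cutSize dist2 B)
    (A : Finset (Site L)) : S A ≤ (3626 * C + 4 * K) * cutSize dist2 A := by
  rcases thin A with h | h
  · exact torus_thin hS hK hC hG h le_rfl
  · rw [← hS.cpl A]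
    exact torus_thin hS hK hC hG h (cut_compl (fun x y => by
      rw [dist2_eq, dist2_eq, dist1_comm]) A)

theorem fold2_fib (c c' : Fin L) (t : Site L) : #{v | Prod.map (fold c) (fold c') v = t} ≤ 16 := by
  refine (card_le_card (t := ({x | fold c x = t.1} : Finset _) ×ˢ ({x | fold c' x = t.2} : Finset _))
    fun v hv => ?_).trans ((card_product _ _).le.trans
      (Nat.mul_le_mul (fold_fib c t.1) (fold_fib c' t.2)))
  have := (mem_filter.1 hv).2
  exact mem_product.2 ⟨mem_filter.2 ⟨mem_univ _, congrArg Prod.fst this⟩,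
    mem_filter.2 ⟨mem_univ _, congrArg Prod.snd this⟩⟩

theorem cut_le (A : Finset (Site L)) : cutSize dist2 A ≤ cutSize distT A :=
  card_le_card (monotone_filter_right _ fun p _ h => by
    have := p.1.1.2; have := p.2.1.2; have := p.1.2.2; have := p.2.2.2
    simp only [dist2, distT, cyc, Nat.dist] at h ⊢
    omega)

theorem adm_mono {V : Type} [Fintype V] [DecidableEq V] {d d' : V → V → ℕ} {R q : ℕ} {J : ℝ}
    {H : Op V q} (h : ∀ x y, d' x y ≤ d x y) (hH : IsAdmissible d R J H) :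
    IsAdmissible d' R J H := by
  obtain ⟨k, h1, h2, h3⟩ := hH
  exact ⟨k, h1, fun X hX => ⟨(h2 X hX).1, fun x hx y hy =>
    (h x y).trans ((h2 X hX).2 x hx y hy)⟩, h3⟩

theorem general_torus {q h R : ℕ} {J Δ : ℝ} (hq : 1 ≤ q) (hJ : 0 ≤ J) (hΔ : 0 ≤ Δ) (hC : 0 ≤ C)
    (base : ∀ (H : Op (Site L) (q ^ (h * 16))),
      Admissible L (q ^ (h * 16)) R (strength (h * 16) R (J + Δ)) H →
      ∀ (E : ℝ) (Ω : Conf (Site L) (q ^ (h * 16)) → ℂ), GappedGround H Δ E Ω →
      ∀ A : Finset (Site L), entropyOf A Ω ≤ C * (bdry A : ℝ))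
    {V : Type} [Fintype V] [DecidableEq V] (π : V → Site L) (hπ : ∀ c, #{v | π v = c} ≤ h)
    {H : Op V q} (hH : IsAdmissible (fun x y => distT (π x) (π y)) R J H) {E : ℝ}
    {Ω : Conf V q → ℂ} (hg : IsGapped H Δ E Ω) (B : Finset (Site L)) :
    entropyOf {v | π v ∈ B} Ω ≤ (3626 * C + 4 * (Real.log q * h)) * cutSize dist2 B :=
  torus (ent hq hg.gapped.1 hπ) (mul_nonneg (Real.log_natCast_nonneg q) h.cast_nonneg) hC
    (fun c c' D => by
      simpa only [mem_filter, mem_univ, true_and] using general hq hJ hΔ base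
        (fun v => Prod.map (fold c) (fold c') (π v)) (fun t => (card_le_mul_card_image_of_maps_to
          (t := {w | Prod.map (fold c) (fold c') w = t})
          (fun v hv => mem_filter.2 ⟨mem_univ _, (mem_filter.1 hv).2⟩) h fun c _ =>
          (card_le_card (filter_subset_filter _ (subset_univ _))).trans (hπ c)).trans
          (Nat.mul_le_mul_left _ (fold2_fib c c' t)))
        (adm_mono (fun x y => add_le_add (fold_lip _ _ _) (fold_lip _ _ _)) hH) hg D) B

end Vale.Agent.N356
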